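import Vale.Agent.P167.N.H469.Ra2
import Vale.Agent.P167.H437Q.Ret

/-!
# P167, `0 < q < 1`: the block `P_ret`
-/

set_option autoImplicit false

open Filter Topology Set

namespace Vale.Agent.P167.N.H437Q.Ret

open Vale.Agent.P167.H437Q.Ret Vale.Agent.P167.H437Q

open Vale.Agent.P167.E6 (Approx)

/-- **[RET-A]** The block `P_ret`, `0 < q < 1`. -/
theorem p_ret {q : ℝ} (hq1 : Kit (√q)) (_ : q ≤ 4) {Φ : (ℝ × ℝ) ≃ₜ (ℝ × ℝ)} {δ : ℕ → ℝ}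
    {N k : ℕ → ℕ} {p : ∀ n, ZMod (N n) → ℤ × ℤ} {S : ℕ → Finset (ℤ × ℤ)}
    (hA : Approx Φ δ N k p S) (ψn : ℕ → ℂ → ℂ) :
    Vale.Agent.P167.H174.BD.P_ret Φ δ N k p S ψn q := by
  classical
  intro r₁ hr₁ hr₁' ε hε
  obtain ⟨r', hr', h⟩ := Vale.Agent.P167.N.H469.retA_mean hq1 hA hr₁ hr₁' hε
  refine ⟨r', hr', ?_⟩
  filter_upwards [h] with n hn
  rw [exW_mean]
  refine le_trans (le_of_eq ?_) hn
  unfold Final.mean
  congr 1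

end Vale.Agent.P167.N.H437Q.Ret
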